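import Vale.Agent.P067.MathlibUsed

/-!
# P067, final statement: definitions

A finite simplicial complex is an `AbstractSimplicialComplex V` (Mathlib: nonempty finite sets,
closed under nonempty subsets, containing all singletons) on a finite vertex type `V`.
-/

set_option autoImplicit false

open Finset

namespace Vale.Agent.P067

attribute [local instance] Classical.propDecidable

variable {V : Type} [Fintype V]

/-- `X(i)`: the faces with `i + 1` vertices. -/
abbrev Face (X : AbstractSimplicialComplex V) (i : ℕ) : Type :=
  {s : Finset V // s ∈ X ∧ s.card = i + 1}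

/-- `X` is pure of dimension `d`: every face lies in a face with `d + 1` vertices. -/
def IsPure (X : AbstractSimplicialComplex V) (d : ℕ) : Prop :=
  ∀ s ∈ X, ∃ t ∈ X, t.card = d + 1 ∧ s ⊆ t

/-- The `1`-skeleton of `X`, as a graph on the vertices. -/
def skel (X : AbstractSimplicialComplex V) : SimpleGraph V where
  Adj u v := u ≠ v ∧ ({u, v} : Finset V) ∈ X
  symm := ⟨fun u v h => ⟨h.1.symm, by rw [Finset.pair_comm]; exact h.2⟩⟩
  loopless := ⟨fun _ h => h.1 rfl⟩

/-- The degree of the `d`-dimensional complex `X`: the largest number of `d`-faces containing a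
single vertex. -/
noncomputable def degree (X : AbstractSimplicialComplex V) (d : ℕ) : ℕ :=
  univ.sup fun v : V => ((univ : Finset (Face X d)).filter fun t => v ∈ t.1).card

/-- The weight `w_i(s)` of an `i`-face `s` of the `d`-dimensional complex `X`. -/
noncomputable def wt (X : AbstractSimplicialComplex V) (d : ℕ) {i : ℕ} (s : Face X i) : ℝ :=
  (((univ : Finset (Face X d)).filter fun t => s.1 ⊆ t.1).card : ℝ) /
    ((Nat.choose (d + 1) (i + 1) : ℝ) * (Fintype.card (Face X d) : ℝ))

/-- The norm of an `i`-cochain: the sum of the weights of the faces where it does not vanish. -/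
noncomputable def cnorm (X : AbstractSimplicialComplex V) (d : ℕ) {i : ℕ}
    (f : Face X i → ZMod 2) : ℝ :=
  ∑ s ∈ (univ : Finset (Face X i)).filter (fun s => f s ≠ 0), wt X d s

/-- The coboundary `δ_i`. -/
noncomputable def cobd (X : AbstractSimplicialComplex V) (i : ℕ) (f : Face X i → ZMod 2) :
    Face X (i + 1) → ZMod 2 :=
  fun t => ∑ s ∈ (univ : Finset (Face X i)).filter (fun s => s.1 ⊆ t.1), f s

/-- The coboundaries: `B^0` is the set of constant functions, `B^i` the image of `δ_{i-1}`. -/
def cobs (X : AbstractSimplicialComplex V) : (i : ℕ) → Set (Face X i → ZMod 2)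
  | 0 => {f | ∃ c : ZMod 2, ∀ s, f s = c}
  | i + 1 => Set.range (cobd X i)

/-- The distance of a cochain to a set of cochains. -/
noncomputable def cdist (X : AbstractSimplicialComplex V) (d : ℕ) {i : ℕ}
    (f : Face X i → ZMod 2) (A : Set (Face X i → ZMod 2)) : ℝ :=
  sInf ((fun a => cnorm X d (f - a)) '' A)

/-- The `d`-dimensional complex `X` is an `ε`-coboundary expander. -/
def IsCoboundaryExpander (X : AbstractSimplicialComplex V) (d : ℕ) (ε : ℝ) : Prop :=
  ∀ i < d, ∀ f : Face X i → ZMod 2, ε * cdist X d f (cobs X i) ≤ cnorm X d (cobd X i f)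

end Vale.Agent.P067
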